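import Crest.Agent.X212.Bor5.Api

/-!
# Row 212, layer S (helper17): Farey edges in integers; BND
-/

set_option autoImplicit false

open Module Function Filter

noncomputable section

namespace Crest.Agent.X212.Pos17

open Bor5 Bor5.Fam

variable {p q p' q' : ℤ}

theorem ed_l (h : Ed p q p' q') : Sl p q :=
  ⟨fun e => by have := h.1; simp [e] at this, h.2.1, ⟨-q', p', by linear_combination h.2.2.2⟩⟩

theorem ed_r (h : Ed p q p' q') : Sl p' q' :=
  ⟨fun e => by have := h.1; simp [e] at this, h.2.2.1, ⟨q, -p, by linear_combination h.2.2.2⟩⟩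

theorem ed_neg (h : Ed p q p' q') : Ed (-p') q' (-p) q :=
  ⟨by linarith [h.1, mul_comm p p'], h.2.2.1, h.2.1, by linear_combination h.2.2.2⟩

theorem ed_pos (h : Ed p q p' q') (hp : 0 < p) : 0 < p' := by nlinarith [h.1]

theorem ed_pos' (h : Ed p q p' q') (hp : 0 < p') : 0 < p := by nlinarith [h.1]

theorem ed_lt (h : Ed p q p' q') (hp : p < 0) : p' < 0 := by nlinarith [h.1]

theorem ed_lt' (h : Ed p q p' q') (hp : p' < 0) : p < 0 := by nlinarith [h.1]

theorem ed_ml (h : Ed p q p' q') : Ed p q (p + p') (q + q') :=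
  ⟨by nlinarith [h.1, mul_self_nonneg p], h.2.1, add_nonneg h.2.1 h.2.2.1, by linear_combination h.2.2.2⟩

theorem ed_mr (h : Ed p q p' q') : Ed (p + p') (q + q') p' q' :=
  ⟨by nlinarith [h.1, mul_self_nonneg p'], add_nonneg h.2.1 h.2.2.1, h.2.2.1, by linear_combination h.2.2.2⟩

theorem ed_inf (hp : 0 < p) : Ed p 1 1 0 := ⟨by simpa, by simp, by simp, by simp⟩

theorem ed_ninf (hp : p < 0) : Ed (-1) 0 p 1 := ⟨by simpa, by simp, by simp, by simp⟩

theorem sl_zero (h : Sl p 0) : p = 1 ∨ p = -1 := Int.isUnit_iff.1 (isCoprime_zero_right.1 h.2.2)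

theorem sl_one (hp : p ≠ 0) : Sl p 1 := ⟨hp, zero_le_one, isCoprime_one_right⟩

theorem sl_inf : Sl 1 0 := ⟨one_ne_zero, le_rfl, isCoprime_one_left⟩

theorem sl_add (h : Sl p q) (hq : 2 ≤ q) (k : ℤ) : Sl (p + k * q) q := by
  have hc : IsCoprime (p + k * q) q := h.2.2.add_mul_right_left k
  refine ⟨fun e => ?_, h.2.1, hc⟩
  rw [e] at hc
  rcases Int.isUnit_iff.1 (isCoprime_zero_left.1 hc) with a | a <;> omega

/-- an upper neighbour with a smaller denominator -/
theorem exists_up (h : Sl p q) (hp : 0 < p) (hq : 0 < q) : ∃ p' q', Ed p q p' q' ∧ q' < q := by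
  obtain ⟨a, b, e⟩ := h.2.2
  have h1 := Int.emod_nonneg (-a) hq.ne'
  have h2 := Int.emod_lt_of_pos (-a) hq
  have h3 := Int.emod_add_mul_ediv (-a) q
  have h4 : q * (b - (-a) / q * p) - (-a) % q * p = 1 := by linear_combination e - p * h3
  refine ⟨b - (-a) / q * p, (-a) % q, ⟨mul_pos hp ?_, hq.le, h1, h4⟩, h2⟩
  nlinarith [mul_nonneg h1 hp.le]

/-- a lower neighbour with a smaller denominator -/
theorem exists_dn (h : Sl p q) (hp : p < 0) (hq : 0 < q) : ∃ p' q', Ed p' q' p q ∧ q' < q := by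
  obtain ⟨a, b, e, l⟩ := exists_up h.neg (by omega) hq
  exact ⟨-a, b, by simpa using ed_neg e, l⟩

/-- induction over the edges above slope one -/
theorem edge_ind {M : ℤ → ℤ → ℤ → ℤ → Prop} (base : ∀ n, 0 < n → M n 1 1 0)
    (l : ∀ p q p' q', Ed p q p' q' → 0 < p → M p q p' q' → M p q (p + p') (q + q'))
    (r : ∀ p q p' q', Ed p q p' q' → 0 < p → M p q p' q' → M (p + p') (q + q') p' q')
    (h : Ed p q p' q') (hp : 0 < p) (hq : q ≤ p) : M p q p' q' := by
  obtain ⟨n, hn⟩ : ∃ n : ℕ, q + q' ≤ n := ⟨(q + q').toNat, Int.self_le_toNat _⟩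
  induction n generalizing p q p' q' with
  | zero =>
    obtain ⟨-, a, b, c⟩ := h
    obtain rfl : q = 0 := by omega
    obtain rfl : q' = 0 := by omega
    simp at c
  | succ n ih =>
    have hp' := ed_pos h hp
    obtain ⟨-, a, b, c⟩ := h
    have hq0 : 0 < q := by nlinarith [mul_nonneg b hp.le]
    rcases eq_or_lt_of_le b with rfl | b0
    · obtain rfl : q = 1 := by nlinarith
      obtain rfl : p' = 1 := by linarith
      exact base p hp
    rcases le_or_gt q q' with k | k
    · have h1 : 0 < p' - p := by nlinarith [mul_nonneg (sub_nonneg.2 k) hp.le]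
      have e : Ed p q (p' - p) (q' - q) := ⟨mul_pos hp h1, a, by omega, by linear_combination c⟩
      simpa using l _ _ _ _ e hp (ih e hp hq (by push_cast at hn; omega))
    · have h0 : q' + 1 ≤ p' := by nlinarith
      have h1 : q - q' ≤ p - p' := by nlinarith
      have e : Ed (p - p') (q - q') p' q' := ⟨mul_pos (by omega) hp', by omega, b, by linear_combination c⟩
      simpa using r _ _ _ _ e (by omega) (ih e (by omega) h1 (by push_cast at hn; omega))

/-- induction over the edges below slope minus one -/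
theorem edge_ind' {M : ℤ → ℤ → ℤ → ℤ → Prop} (base : ∀ n, n < 0 → M (-1) 0 n 1)
    (l : ∀ p q p' q', Ed p q p' q' → p < 0 → M p q p' q' → M p q (p + p') (q + q'))
    (r : ∀ p q p' q', Ed p q p' q' → p < 0 → M p q p' q' → M (p + p') (q + q') p' q')
    (h : Ed p q p' q') (hp : p' < 0) (hq : q' ≤ -p') : M p q p' q' := by
  have := edge_ind (M := fun a b a' b' => M (-a') b' (-a) b) (fun n hn => base _ (by omega))
    (fun a b a' b' e ha k => by
      have := r _ _ _ _ (ed_neg e) (by have := ed_pos e ha; omega) k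
      rwa [← neg_add, add_comm a', add_comm b'] at this)
    (fun a b a' b' e ha k => by
      have := l _ _ _ _ (ed_neg e) (by have := ed_pos e ha; omega) k
      rwa [← neg_add, add_comm a', add_comm b'] at this) (ed_neg h) (by omega) hq
  simpa using this

theorem D_inf (hp : p = 1 ∨ p = -1) (q j : ℤ) : D p q j = 0 := by
  rcases hp with rfl | rfl <;> simp [D]

theorem del_inf (S : Sys) (hp : p = 1 ∨ p = -1) : S.Del p 0 :=
  funext fun s => ((S.inf p hp).2 s).trans (D_inf hp _ _).symm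

theorem cg_self (X : Ob) : X.Cg X.d := fun _ => ⟨0, by simp⟩

/-- BND -/
theorem bnd (hS : SharpStmt) : BndStmt := by
  intro S p q h
  obtain ⟨n, hn⟩ : ∃ n : ℕ, q ≤ n := ⟨q.toNat, Int.self_le_toNat _⟩
  induction n generalizing p q with
  | zero =>
    obtain rfl : q = 0 := le_antisymm hn h.2.1
    have e : S.D p 0 = (S.Y p 0).d := (del_inf S (sl_zero h)).symm
    rw [e]
    exact ⟨cg_self _, fun _ _ => le_rfl, fun _ _ => le_rfl⟩
  | succ n ih =>
    rcases eq_or_lt_of_le h.2.1 with rfl | hq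
    · exact ih p 0 h n.cast_nonneg
    rcases lt_or_gt_of_ne h.1 with hp | hp
    · obtain ⟨a, b, e, l⟩ := exists_dn h hp hq
      have k := ih a b (ed_l e) (by push_cast at hn; omega)
      exact ⟨(S.neg _ _ _ _ e).cg_t ((hS S).1 _ _ _ _ e) k.1, fun a => by omega,
        fun _ => (S.neg _ _ _ _ e).lb ((hS S).1 _ _ _ _ e) (k.2.2 (ed_lt' e hp))⟩
    · obtain ⟨a, b, e, l⟩ := exists_up h hp hq
      have k := ih a b (ed_r e) (by push_cast at hn; omega)
      exact ⟨(S.neg _ _ _ _ e).cg_s ((hS S).1 _ _ _ _ e) k.1,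
        fun _ => (S.neg _ _ _ _ e).ub ((hS S).1 _ _ _ _ e) (k.2.1 (ed_pos e hp)), fun a => by omega⟩

end Crest.Agent.X212.Pos17
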