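import Crest.Agent.X212.Pos17.Far

/-!
# Row 212, layer S (helper17): POS, PROP, ALL
-/

set_option autoImplicit false

open Module Function Filter

noncomputable section

namespace Crest.Agent.X212.Pos17

open Bor5 Bor5.Fam

variable {p q p' q' : ℤ}

/-- the value of `ρ` -/
def rho (X : Ob) (D : ZMod X.P → ℚ) : ℚ := finrank K X.Red + ∑ s, (D s - X.d s) / 2

theorem rho_int {X : Ob} {D : ZMod X.P → ℚ} (h : X.Cg D) : ∃ r : ℤ, (r : ℚ) = rho X D := by
  choose k hk using h
  refine ⟨finrank K X.Red + ∑ s, k s, ?_⟩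
  simp only [rho, hk]
  push_cast
  exact congrArg _ (Finset.sum_congr rfl fun s _ => by ring)

theorem rho_self (X : Ob) : rho X X.d = finrank K X.Red := by simp [rho]

theorem rho_pure (hV : ValStmt) {X : Ob} (h : X.Pure) : rho X X.d = 0 := by
  have := (hV X X.d).1
  rw [rho_self, (pure_iff X).1 h, Nat.cast_zero]

/-- additivity in a triad whose third map vanishes -/
theorem rho_add (hV : ValStmt) (hR : RhoStmt) {L M U : Ob} {f : Fam L M} {g : Fam M U} {h : Fam U L}
    (t : Tri f g h) (z : ∀ κ, h.F κ = 0) {DL DM DU} (sf : f.Sharp DL DM) (sg : g.Sharp DM DU)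
    (cL : L.Cg DL) (cM : M.Cg DM) (cU : U.Cg DU) : rho M DM = rho L DL + rho U DU := by
  obtain ⟨a, ha⟩ := rho_int cL
  obtain ⟨b, hb⟩ := rho_int cM
  obtain ⟨c, hc⟩ := rho_int cU
  have k := (hR L M U f g h t DL DM DU sf sg cL cM cU a b c (((hV _ _).2 cL a).2 ha) (((hV _ _).2 cM b).2 hb)
    (((hV _ _).2 cU c).2 hc)).2
  rw [h.tot_eq_zero z, LinearMap.range_zero, finrank_bot] at k
  rw [← ha, ← hb, ← hc]
  exact_mod_cast (by simpa using k.symm : b = a + c)

section
variable (S : Sys)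

/-- the third map of the triad over an edge vanishes -/
def Z (p q p' q' : ℤ) : Prop := ∀ κ, (S.F p' q' p q).F κ = 0

variable {S}

theorem Z.ml (h : Ed p q p' q') (z : Z S p q p' q') : Z S p q (p + p') (q + q') := fun κ => by
  rw [← S.bu2 p q p' q' _ _ h rfl rfl κ, z, LinearMap.zero_comp]

theorem Z.mr (h : Ed p q p' q') (z : Z S p q p' q') : Z S (p + p') (q + q') p' q' := fun κ => by
  rw [← S.bu3 p q p' q' _ _ h rfl rfl κ, z, LinearMap.comp_zero]

theorem z_inf (hp : 0 < p) : Z S p 1 1 0 :=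
  (S.tri p 1 1 0 _ _ (ed_inf hp) rfl rfl).ph.F_pure (S.inf 1 (.inl rfl)).1

/-- the third maps vanish above slope one -/
theorem z_pos (h : Ed p q p' q') (hp : 0 < p) (hq : q ≤ p) : Z S p q p' q' :=
  edge_ind (M := Z S) (fun _ => z_inf) (fun _ _ _ _ e _ => Z.ml e) (fun _ _ _ _ e _ => Z.mr e) h hp hq

end

theorem rho_med (hS : SharpStmt) (hV : ValStmt) (hR : RhoStmt) {S : Sys} {a b : ℤ} (h : Ed p q p' q')
    (z : Z S p q p' q') (ha : a = p + p') (hb : b = q + q') :
    rho _ (S.D a b) = rho _ (S.D p q) + rho _ (S.D p' q') := by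
  subst ha hb
  exact rho_add hV hR (S.tri _ _ _ _ _ _ h rfl rfl) z ((hS S).1 _ _ _ _ (ed_ml h)) ((hS S).1 _ _ _ _ (ed_mr h))
    (bnd hS S _ _ (ed_l h)).1 (bnd hS S _ _ (ed_r (ed_ml h))).1 (bnd hS S _ _ (ed_r h)).1

theorem rho_inf (hV : ValStmt) (S : Sys) (hp : p = 1 ∨ p = -1) : rho _ (S.D p 0) = 0 := by
  rw [← show _ = S.D p 0 from del_inf S hp]
  exact rho_pure hV (S.inf p hp).1

theorem two_le (h : Sl p q) (hp : |p| < q) : 2 ≤ q := by
  have := abs_pos.2 h.1
  omega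

theorem rho_pos (hS : SharpStmt) (hV : ValStmt) (hR : RhoStmt) (S : Sys) (h : Sl p q) (hp : 0 < p) :
    rho _ (S.D p q) = q * rho _ (S.D 1 1) := by
  have i0 := rho_inf hV S (.inl rfl)
  have i1 : ∀ n : ℤ, 1 ≤ n → rho _ (S.D n 1) = rho _ (S.D 1 1) := fun n hn => by
    induction n, hn using Int.leInduction with
    | base => rfl
    | succ n hn ih => rw [rho_med hS hV hR (ed_inf hn) (z_inf hn) rfl (add_zero _).symm, ih, i0, add_zero]
  have big : ∀ p q, Sl p q → 0 < p → q ≤ p → rho _ (S.D p q) = q * rho _ (S.D 1 1) := fun p q h hp hq => by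
    rcases eq_or_lt_of_le h.2.1 with rfl | h0
    · rw [rho_inf hV S (sl_zero h)]; simp
    obtain ⟨a, b, e, -⟩ := exists_up h hp h0
    refine (edge_ind (M := fun p q a b => Z S p q a b ∧ rho _ (S.D p q) = q * rho _ (S.D 1 1) ∧
      rho _ (S.D a b) = b * rho _ (S.D 1 1)) (fun n hn => ⟨z_inf hn, by simp [i1 n hn], by simp [i0]⟩)
      (fun p q a b e _ k => ⟨k.1.ml e, k.2.1, ?_⟩) (fun p q a b e _ k => ⟨k.1.mr e, ?_, k.2.2⟩) e hp hq).2.1 <;>
    · rw [rho_med hS hV hR e k.1 rfl rfl, k.2.1, k.2.2]; push_cast; ring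
  rcases le_or_gt q p with hq | hq
  · exact big p q h hp hq
  have h2 := two_le h (by rwa [abs_of_pos hp])
  have h' : Sl (p + q) q := by simpa using sl_add h h2 1
  obtain ⟨w⟩ := S.shr p q _ h h2 rfl
  have sh := (hS S).2 p q _ h h2 rfl w
  have k := rho_add hV hR (w.pp hp) ((w.pp hp).ph.F_pure w.pure) (sh.1 (.inl hp)) (sh.2.1 (by omega)).1
    (bnd hS S _ _ h).1 (bnd hS S _ _ h').1 (cg_self _)
  rw [rho_pure hV w.pure, add_zero, big _ _ h' (by omega) (by omega)] at k
  exact k.symm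

/-- POS -/
theorem pos (hS : SharpStmt) (hV : ValStmt) (hR : RhoStmt) : PosStmt := fun S => by
  obtain ⟨R, hr⟩ := rho_int (bnd hS S 1 1 (sl_one one_ne_zero)).1
  refine ⟨R, fun p q h hp => ((hV _ _).2 (bnd hS S p q h).1 _).2 ?_⟩
  rw [Int.cast_mul, hr]
  exact (rho_pos hS hV hR S h hp).symm

/-! ### propagation -/

theorem del_up (hS : SharpStmt) {S : Sys} (h : Ed p q p' q') (hp : 0 < p) (d : S.Del p q) : S.Del p' q' :=
  funext fun s => le_antisymm ((bnd hS S _ _ (ed_r h)).2.1 (ed_pos h hp) s)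
    ((S.neg _ _ _ _ h).lb ((hS S).1 _ _ _ _ h) (fun c => (congrFun d c).ge) s)

theorem del_dn (hS : SharpStmt) {S : Sys} (h : Ed p q p' q') (hp : p' < 0) (d : S.Del p' q') : S.Del p q :=
  funext fun s => le_antisymm ((S.neg _ _ _ _ h).ub ((hS S).1 _ _ _ _ h) (fun c => (congrFun d c).le) s)
    ((bnd hS S _ _ (ed_l h)).2.2 (ed_lt' h hp) s)

theorem del_pos (hS : SharpStmt) (hD : DownStmt) {S : Sys} (h : Sl p q) (hp : 0 < p) (hq : 0 < q)
    (d : S.Del p q) {a b : ℤ} (h' : Sl a b) (ha : 0 < a) : S.Del a b := by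
  have i0 := del_inf S (.inl rfl)
  have s1 : ∀ n : ℕ, ∀ p q : ℤ, q ≤ n → Sl p q → 0 < p → 0 < q → S.Del p q → ∃ m, 1 ≤ m ∧ S.Del m 1 := by
    intro n
    induction n with
    | zero => intro p q a _ _ b; simp at a; omega
    | succ n ih =>
      intro p q hn h hp hq d
      rcases eq_or_lt_of_le (show 1 ≤ q from hq) with rfl | h1
      · exact ⟨p, hp, d⟩
      obtain ⟨a, b, e, l⟩ := exists_up h hp hq
      refine ih a b (by push_cast at hn; omega) (ed_r e) (ed_pos e hp) (lt_of_le_of_ne e.2.2.1 ?_) (del_up hS e hp d)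
      rintro rfl
      have := e.2.2.2
      have := ed_pos e hp
      nlinarith
  obtain ⟨m, hm, dm⟩ := s1 _ p q (Int.self_le_toNat _) h hp hq d
  have s2 : S.Del 1 1 := by
    induction m, hm using Int.leInduction with
    | base => exact dm
    | succ n hn ih =>
      have e := ed_inf hn
      refine ih (hD _ _ _ _ _ _ (S.tri n 1 1 0 (n + 1) 1 e rfl (add_zero _).symm) (tot_eq_zero _ (z_inf hn)) _ ?_
        ((bnd hS S _ _ (ed_l e)).2.1 hn))
      rw [dm]
      exact (hS S).1 _ _ _ _ (by simpa using ed_ml e)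
  have s3 : ∀ n : ℤ, 1 ≤ n → S.Del n 1 := fun n hn => by
    induction n, hn using Int.leInduction with
    | base => exact s2
    | succ n hn ih => exact del_up hS (by simpa using ed_ml (ed_inf hn)) hn ih
  have big : ∀ p q, Sl p q → 0 < p → q ≤ p → S.Del p q := fun p q h hp hq => by
    rcases eq_or_lt_of_le h.2.1 with rfl | h0
    · exact del_inf S (sl_zero h)
    obtain ⟨a, b, e, -⟩ := exists_up h hp h0
    exact edge_ind (M := fun p q _ _ => S.Del p q) s3 (fun _ _ _ _ _ _ k => k)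
      (fun p q a b e hp k => del_up hS (ed_ml e) hp k) e hp hq
  rcases le_or_gt b a with hq | hq
  · exact big a b h' ha hq
  have h2 := two_le h' (by rwa [abs_of_pos ha])
  obtain ⟨w⟩ := S.shr a b _ h' h2 rfl
  refine hD _ _ _ _ _ _ (w.pp ha) (tot_eq_zero _ ((w.pp ha).ph.F_pure w.pure)) _ ?_ ((bnd hS S _ _ h').2.1 ha)
  rw [big _ _ (by simpa using sl_add h' h2 1) (by omega) (by omega)]
  exact ((hS S).2 a b _ h' h2 rfl w).1 (.inl ha)

theorem del_neg (hS : SharpStmt) (hU : UpStmt) {S : Sys} (h : Sl p q) (hp : p < 0) (hq : 0 < q)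
    (d : S.Del p q) {a b : ℤ} (h' : Sl a b) (ha : a < 0) : S.Del a b := by
  have i0 := del_inf S (.inr rfl)
  have s1 : ∀ n : ℕ, ∀ p q : ℤ, q ≤ n → Sl p q → p < 0 → 0 < q → S.Del p q → ∃ m, m ≤ -1 ∧ S.Del m 1 := by
    intro n
    induction n with
    | zero => intro p q a _ _ b; simp at a; omega
    | succ n ih =>
      intro p q hn h hp hq d
      rcases eq_or_lt_of_le (show 1 ≤ q from hq) with rfl | h1
      · exact ⟨p, by omega, d⟩
      obtain ⟨a, b, e, l⟩ := exists_dn h hp hq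
      refine ih a b (by push_cast at hn; omega) (ed_l e) (ed_lt' e hp) (lt_of_le_of_ne e.2.1 ?_) (del_dn hS e hp d)
      rintro rfl
      have := e.2.2.2
      have := ed_lt' e hp
      nlinarith
  obtain ⟨m, hm, dm⟩ := s1 _ p q (Int.self_le_toNat _) h hp hq d
  have s2 : S.Del (-1) 1 := by
    induction m, hm using Int.leInductionDown with
    | base => exact dm
    | pred n hn ih =>
      have e : Ed (-1) 0 n 1 := ed_ninf (by omega)
      refine ih (hU _ _ _ _ _ _ (S.tri (-1) 0 n 1 (n - 1) 1 e (by ring) (zero_add _).symm) (S.inf _ (.inr rfl)).1 _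
        ?_ ?_ ((bnd hS S _ _ (ed_r e)).2.2 (by omega)))
      · rw [dm, i0]
        exact (hS S).1 _ _ _ _ (ed_ninf (by omega))
      · rw [dm]
        exact (hS S).1 _ _ _ _ (by simpa [add_comm, sub_eq_add_neg] using ed_mr e)
  have s3 : ∀ n : ℤ, n ≤ -1 → S.Del n 1 := fun n hn => by
    induction n, hn using Int.leInductionDown with
    | base => exact s2
    | pred n hn ih =>
      exact del_dn hS (by simpa [add_comm, sub_eq_add_neg] using ed_mr (ed_ninf (p := n) (by omega))) (by omega) ih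
  have big : ∀ p q, Sl p q → p < 0 → q ≤ -p → S.Del p q := fun p q h hp hq => by
    rcases eq_or_lt_of_le h.2.1 with rfl | h0
    · exact del_inf S (sl_zero h)
    obtain ⟨a, b, e, -⟩ := exists_dn h hp h0
    exact edge_ind' (M := fun _ _ p q => S.Del p q) (fun n hn => s3 n (by omega))
      (fun p q a b e hp k => del_dn hS (ed_mr e) (ed_lt e hp) k) (fun _ _ _ _ _ _ k => k) e hp hq
  rcases le_or_gt b (-a) with hq | hq
  · exact big a b h' ha hq
  have h2 := two_le h' (by rwa [abs_of_neg ha])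
  have h3 : Sl (a - b) b := by simpa [sub_eq_add_neg] using sl_add h' h2 (-1)
  obtain ⟨p, rfl⟩ : ∃ p, a = p + b := ⟨a - b, by ring⟩
  rw [add_sub_cancel_right] at h3
  obtain ⟨w⟩ := S.shr p b _ h3 h2 rfl
  have sh := (hS S).2 p b _ h3 h2 rfl w
  have dp := big p b h3 (by omega) (by omega)
  refine hU _ _ _ _ _ _ (w.nn ha) w.pure _ ?_ ?_ ((bnd hS S _ _ h').2.2 ha) <;> rw [dp]
  exacts [(sh.2.2 (by omega)).2, sh.1 (.inr ha)]

/-- PROP -/
theorem prop (hS : SharpStmt) (hU : UpStmt) (hD : DownStmt) : PropStmt :=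
  fun _ _ _ _ _ h h' hp hp' hq hq' d d' _ _ k => (lt_or_gt_of_ne k.1).elim
    (del_neg hS hU h' hp' hq' d' k) (del_pos hS hD h hp hq d k)

/-! ### everything -/

theorem rbij (hS : SharpStmt) (hE : RedStmt) {S : Sys} (d : ∀ p q, Sl p q → S.Del p q) (h : Sl p q) (hq : 1 ≤ q)
    (e : p' = p + q) (hp' : p' ≠ 0) : RBij (S.F p q p' q).tot := by
  have sh : ∀ p q p' q', Ed p q p' q' → (S.F p q p' q').Sharp (S.Y p q).d (S.Y p' q').d := fun p q p' q' e => by
    rw [d _ _ (ed_l e), d _ _ (ed_r e)]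
    exact (hS S).1 _ _ _ _ e
  rcases eq_or_lt_of_le hq with rfl | h2
  · rcases lt_or_gt_of_ne h.1 with hp | hp
    · have e1 : Ed (-1) 0 p' 1 := ed_ninf (by omega)
      refine (hE _ _ _ _ _ _ (S.tri (-1) 0 p' 1 p 1 e1 (by omega) (zero_add _).symm) (sh _ _ _ _ (ed_ninf hp))
        (sh _ _ _ _ ?_)).2.1 (S.inf _ (.inr rfl)).1
      convert ed_mr e1 using 1 <;> omega
    · have e1 := ed_inf hp
      refine (hE _ _ _ _ _ _ (S.tri p 1 1 0 p' 1 e1 e (add_zero _).symm) (sh _ _ _ _ ?_)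
        (sh _ _ _ _ (ed_inf (by omega)))).1 (S.inf _ (.inl rfl)).1
      convert ed_ml e1 using 1; omega
  subst e
  obtain ⟨w⟩ := S.shr p q _ h h2 rfl
  have k := (hS S).2 p q _ h h2 rfl w
  rw [← show _ = S.D p q from d p q h, ← show _ = S.D (p + q) q from d _ q (by simpa using sl_add h h2 1)] at k
  rcases lt_or_gt_of_ne h.1 with hp | hp
  · rcases lt_or_gt_of_ne hp' with a | a
    · exact (hE _ _ _ _ _ _ (w.nn a) (k.2.2 hp).2 (k.1 (.inr a))).2.1 w.pure
    · exact (hE _ _ _ _ _ _ (w.np hp a) (k.2.1 a).2 (k.2.2 hp).1).2.2 w.pure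
  · exact (hE _ _ _ _ _ _ (w.pp hp) (k.1 (.inl hp)) (k.2.1 (by omega)).1).1 w.pure

theorem rbij_dim {A B : Ob} {g : A.H →ₗ[K] B.H} (h : RBij g) : finrank K A.Red = finrank K B.Red :=
  let ⟨φ, _, b⟩ := h
  (LinearEquiv.ofBijective φ b).finrank_eq

/-- ALL -/
theorem all (hS : SharpStmt) (hV : ValStmt) (hR : RhoStmt) (hF : FoldStmt) (hE : RedStmt) : AllStmt := by
  intro S d
  have rd : ∀ p q, Sl p q → rho _ (S.D p q) = finrank K (S.Y p q).Red := fun p q h => by
    rw [← show _ = S.D p q from d p q h, rho_self]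
  set R := finrank K (S.Y 1 1).Red with hR1
  have po : ∀ p q, Sl p q → 0 < p → (finrank K (S.Y p q).Red : ℤ) = q * R := fun p q h hp => by
    have := rho_pos hS hV hR S h hp
    rw [rd p q h, rd 1 1 (sl_one one_ne_zero)] at this
    exact_mod_cast this
  have two : ∀ p q, Sl p q → 2 ≤ q → (finrank K (S.Y p q).Red : ℤ) = q * R := fun p q h hq => by
    obtain ⟨n, hn⟩ : ∃ n : ℕ, -p ≤ n := ⟨(-p).toNat, Int.self_le_toNat _⟩
    induction n generalizing p with
    | zero => exact po p q h (lt_of_le_of_ne (by simpa using hn) h.1.symm)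
    | succ n ih =>
      have h' : Sl (p + q) q := by simpa using sl_add h hq 1
      rw [rbij_dim (rbij hS hE d h (by omega) rfl h'.1)]
      exact ih _ h' (by push_cast at hn; omega)
  have one : ∀ n : ℤ, n ≤ -1 → finrank K (S.Y n 1).Red = finrank K (S.Y (-1) 1).Red := fun n hn => by
    induction n, hn using Int.leInductionDown with
    | base => rfl
    | pred n hn ih => rw [rbij_dim (rbij (p' := n) hS hE d (sl_one (by omega)) le_rfl (by ring) (by omega)), ih]
  have m1 : finrank K (S.Y (-1) 1).Red = R := by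
    have e0 : Ed (-1) 0 (-1) 1 := ed_ninf (by omega)
    have z0 : Z S (-1) 0 (-1) 1 := by
      refine hF _ _ _ _ _ _ (S.tri _ _ _ _ _ _ e0 rfl rfl) (S.inf _ (.inr rfl)).1 ?_
      rw [d _ _ (ed_l e0), d _ _ (ed_r (ed_ml e0))]
      exact (hS S).1 _ _ _ _ (ed_ml e0)
    have e1 : Ed (-2) 1 (-1) 1 := ed_mr e0
    have z1 : Z S (-2) 1 (-1) 1 := z0.mr e0
    have s3 : Sl (-3) 2 := ed_r (ed_ml e1)
    have k := rho_med (a := -3) (b := 2) hS hV hR e1 z1 rfl rfl
    rw [rd _ _ s3, rd _ _ (ed_l e1), rd _ _ (ed_r e1), one (-2) (by omega)] at k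
    have k2 := two _ _ s3 le_rfl
    have k3 : finrank K (S.Y (-3) 2).Red = finrank K (S.Y (-1) 1).Red + finrank K (S.Y (-1) 1).Red := by
      exact_mod_cast k
    omega
  refine ⟨R, d, fun p q h => ?_, fun p q p' h hq e hp' => rbij hS hE d h hq e hp'⟩
  rcases lt_or_gt_of_ne h.1 with hp | hp
  · rcases eq_or_lt_of_le h.2.1 with rfl | h0
    · have := (hV (S.Y p 0) (S.D p 0)).1
      rw [(pure_iff _).1 (S.inf p (sl_zero h)).1]; simp
    rcases eq_or_lt_of_le (show 1 ≤ q from h0) with rfl | h1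
    · rw [one p (by omega), m1, one_mul]
    · exact two p q h h1
  · exact po p q h hp

/-- the glue, from the remaining leaves -/
theorem out (hV : ValStmt) (hI : IsoStmt) (hS : SharpStmt) (hM : SumStmt) (hR : RhoStmt) (hF : FoldStmt)
    (hU : UpStmt) (hD : DownStmt) (hE : RedStmt) (hK : KillStmt) (S : Sys) (nv : S.NV) : Out S :=
  out_of hV hI hM (bnd hS) (pos hS hV hR) (prop hS hU hD) (all hS hV hR hF hE) hK S nv

end Crest.Agent.X212.Pos17
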