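import Crest.Agent.X212.Pos17.Main
import Crest.Agent.X212.Bor5.Top
import Crest.Agent.X212.Hat23.Main

/-!
# Row 212, layer S (helper17): level one is proved
-/

set_option autoImplicit false

namespace Crest.Agent.X212.Pos17

open Bor5

/-- level one -/
theorem outStmt : OutStmt :=
  Bor5.out (bnd Lens8.sharpStmt) (pos Lens8.sharpStmt val Hat23.rho) (prop Lens8.sharpStmt Hat23.up Hat23.down)
    (all Lens8.sharpStmt val Hat23.rho Hat23.fold Hat23.red)

/-- what is left of the row after level one -/
theorem core (h1 : Sys0Stmt) (h2 : CGStmt) (o1 : Opp1) (o2 : Opp2) : Skel83.Core :=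
  Bor5.core (sys_of h1) h2 outStmt o1 o2

end Crest.Agent.X212.Pos17
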